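import Vale.Agent.Lib.P047L.Gadget10

namespace Vale.Agent.Results.P047.A_asymp

open Vale.Agent.Lib.P047L

/-- For every `c < √(11 / (5 π)) ≈ 0.8368` and every large `d`, some Boolean function of degree
at most `d` has level one sum at least `c √d`. -/
theorem result (c : ℝ) (hc : c < Real.sqrt (11 / (5 * Real.pi))) :
    ∀ᶠ d : ℕ in Filter.atTop, ∃ (n : ℕ) (f : (Fin n → Bool) → ℝ),
      (∀ x, f x = 1 ∨ f x = -1) ∧
      (∀ S : Finset (Fin n), d < S.card → fhat f S = 0) ∧
      c * Real.sqrt d ≤ ∑ i, fhat f {i} :=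
  asymp c hc

end Vale.Agent.Results.P047.A_asymp
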