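import Vale.Agent.Lib.P047L.Conical

namespace Vale.Agent.Results.P047.A_conical

open Vale.Agent.Lib.P047L

/-- Let `C j` be the subcube fixing the coordinates of `A j` to true and those of `B j` to false.
First part: a function `f = 2 h - 1 ≤ 1`, with `h` a nonnegative combination of subcubes of
codimension at most `d`, has level one sum at most `2 √(d / e)`.
Second part: a function bounded by one and constant on the pieces of a partition of the cube into
subcubes has level one sum at most the square root of the average codimension. -/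
theorem result {n : ℕ} {ι : Type} [Fintype ι] (A B : ι → Finset (Fin n))
    (hdisj : ∀ j, Disjoint (A j) (B j)) :
    (∀ (d : ℕ) (w : ι → ℝ) (f : (Fin n → Bool) → ℝ),
      (∀ j, (A j).card + (B j).card ≤ d) → (∀ j, 0 ≤ w j) →
      (∀ x, f x = 2 * (∑ j, w j * termInd (A j) (B j) x) - 1) → (∀ x, f x ≤ 1) →
      ∑ i, fhat f {i} ≤ 2 * Real.sqrt (d / Real.exp 1)) ∧
    ((∀ x, ∑ j, termInd (A j) (B j) x = 1) →
      ∀ (v : ι → ℝ) (f : (Fin n → Bool) → ℝ), (∀ j, |v j| ≤ 1) →
      (∀ x, f x = ∑ j, v j * termInd (A j) (B j) x) →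
      ∑ i, fhat f {i} ≤
        Real.sqrt (∑ j, (((A j).card + (B j).card : ℕ) : ℝ) / 2 ^ ((A j).card + (B j).card))) :=
  ⟨fun d w f hd hw hf hle => conical_bound A B hdisj d hd w hw f hf hle,
    fun hpart v f hv hf => partition_bound A B hdisj hpart v hv f hf⟩

end Vale.Agent.Results.P047.A_conical
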