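import Vale.Agent.Lib.P047v.Main

namespace Vale.Agent.Results.P047.B_upper

open Vale.Agent.Lib.P047v

/-- For every Boolean function on the cube of real degree at most `d`, where `d ≥ 2`, the sum of
the degree-one Fourier coefficients is at most `(24/25) d`. -/
theorem result (n d : ℕ) (hd : 2 ≤ d) (f : (Fin n → ℤˣ) → ℤˣ)
    (hdeg : ∀ S : Finset (Fin n), d < S.card → fourierCoeff f S = 0) :
    ∑ i, fourierCoeff f {i} ≤ (24 / 25 : ℝ) * d :=
  main_bound n d hd f hdeg

end Vale.Agent.Results.P047.B_upper
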