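import Vale.Agent.Lib.P047L.Gadget10

namespace Vale.Agent.Results.P047.C_deg5

open Vale.Agent.Lib.P047L Finset

lemma sum_natAbs : ∑ y : Fin 10 → Bool, (h10 y).natAbs = 2176 := by decide +kernel

/-- A Boolean function on ten bits of degree at most five with level one sum `17 / 8`. -/
theorem result : ∃ f : (Fin 10 → Bool) → ℝ, (∀ x, f x = 1 ∨ f x = -1) ∧
    (∀ S : Finset (Fin 10), 5 < S.card → fhat f S = 0) ∧ ∑ i, fhat f {i} = 17 / 8 := by
  set f : (Fin 10 → Bool) → ℝ := fun y => thr (h10 y) with hf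
  have hco : ∀ S : Finset (Fin 10), fhat f S = coefG f S := by
    intro S
    simp [fhat, coefG, chi, chiG, Fintype.card_fin]
  refine ⟨f, fun x => ?_, fun S hS => ?_, ?_⟩
  · simp only [hf, thr]
    split_ifs <;> simp
  · rw [hco]
    exact coefG_eq_zero_of_mem (h10_allFuns thr) hS
  · simp only [hco]
    rw [sum_coefG_singleton]
    have h1 : ∑ x, f x * ∑ i, sg (x i) = ∑ y, |((h10 y : ℤ) : ℝ)| := by
      have hm := h10_meanProp thr
      have h2 : ∀ y, f y * ∑ i, sg (y i) =
          |((h10 y : ℤ) : ℝ)| + thr (h10 y) * (LL y - (h10 y : ℝ)) := by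
        intro y
        rw [← thr_mul]
        simp only [hf, LL]
        ring
      simp_rw [h2]
      rw [Finset.sum_add_distrib, hm, add_zero]
    have h3 : ∑ y : Fin 10 → Bool, |((h10 y : ℤ) : ℝ)| = 2176 := by
      have h4 : ∀ y : Fin 10 → Bool, |((h10 y : ℤ) : ℝ)| = (((h10 y).natAbs : ℕ) : ℝ) := by
        intro y
        rw [Nat.cast_natAbs]
        push_cast
        rfl
      simp_rw [h4]
      rw [← Nat.cast_sum, sum_natAbs]
      norm_num
    rw [h1, h3]
    simp only [Fintype.card_fin]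
    norm_num

end Vale.Agent.Results.P047.C_deg5
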