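import Vale.Agent.Lib.P047.Main

namespace Vale.Agent.Results.P047.Z_main

open Vale.Agent.Lib.P047

/-- For every `d ≥ 2`, a `±1`-valued function on the cube whose Fourier coefficients vanish
above level `d` has total absolute level-one weight at most `(31/32) d`. -/
theorem result (n d : ℕ) (hd : 2 ≤ d) (f : (Fin n → Bool) → ℝ)
    (hf : ∀ x, f x = 1 ∨ f x = -1)
    (hdeg : ∀ S : Finset (Fin n), d < S.card → fhat f S = 0) :
    ∑ i, |fhat f {i}| ≤ (31 / 32 : ℝ) * d :=
  main_theorem d hd f hf hdeg

end Vale.Agent.Results.P047.Z_main
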